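import Vale.Agent.P181.BAL.Defs
import Vale.Agent.P181.TL.H410.T9P

set_option autoImplicit false

/-!
# P181, BAL: the polylogarithmic window from `CoreD`, no condition on `λ_1 - λ_2`

Inputs: the polylog theorem (`PLH`) and few boxes below row two (`FewH`).
-/

namespace Vale.Agent.P181.BAL.H410

open Filter
open Vale.Agent.P181.TL
open Vale.Agent.P181.TL.H410
open Vale.Agent.P181.BAL
open Vale.Agent.P181.H280 (plethMult)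

/-- **(B12)** final form 2 of line BAL: the polylogarithmic window. -/
def TwoLongPD : Prop := ∀ C₀ c₀ : ℝ, 0 < C₀ → 0 ≤ c₀ → ∃ C c : ℝ, 0 < C ∧ 0 < c ∧
  ∀ (a b k : ℕ) (lam : Fin (k + 3) → ℕ), Antitone lam → ∑ i, lam i = a * b → 0 < a →
  1000 * a ≤ b →
  (a : ℝ) ^ 2 ≤ C₀ * (1 + Real.log a) ^ c₀ * ((lam 1 : ℝ) - lam 2) →
  C * (1 + Real.log a) ^ c * a ≤ TL.dn2 lam →
  1000 * TL.dn2 lam ≤ a * b →
  plethMult a b (k + 3) lam ≤ plethMult b a (k + 3) lam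

/-- The last number condition of `CoreD`. -/
theorem lastNum {a b q t l0 l1 l2 z K : ℕ} (ha : 600 ≤ a) (hb : 1000 * a ≤ b)
    (ht : 1000 * t ≤ a * b) (h01 : l1 ≤ l0) (hs : l0 + l1 ≤ a * b) (h2t : l2 ≤ t)
    (hqa : q * a ^ 2 ≤ 5 * a ^ 2 + 16 * t) (hz2 : 2 * z ≤ 3 * a ^ 2)
    (hK1 : l2 + z + K * (5 * a - 6) ≤ l1)
    (hK2 : l1 ≤ l2 + z + K * (5 * a - 6) + (5 * a - 6)) :
    3 * q * a + 3 * ((l1 + t - K * (5 * a - 6)) / a) + 3 + 9 * K ≤ b := by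
  have ha0 : 0 < a := by omega
  obtain ⟨n1, hn1⟩ : ∃ n1, n1 = 5 * a - 6 := ⟨_, rfl⟩
  rw [← hn1] at hK1 hK2 ⊢
  have hn2 : 499 * a ≤ 100 * n1 := by omega
  have hn3 : n1 ≤ 5 * a := by omega
  obtain ⟨U, hU⟩ : ∃ U, U = K * n1 := ⟨_, rfl⟩
  have hKU : 499 * (a * K) ≤ 100 * U := by
    calc 499 * (a * K) = (499 * a) * K := by ring
      _ ≤ (100 * n1) * K := Nat.mul_le_mul_right _ hn2
      _ = 100 * U := by rw [hU]; ring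
  rw [← hU] at hK1 hK2 ⊢
  obtain ⟨W, hW⟩ : ∃ W, W = l1 + t - U := ⟨_, rfl⟩
  rw [← hW]
  have hW2 : a * (W / a) ≤ W := Nat.mul_div_le W a
  have hA2 : 1000 * a ^ 2 ≤ a * b := by
    calc 1000 * a ^ 2 = a * (1000 * a) := by ring
      _ ≤ a * b := Nat.mul_le_mul_left _ hb
  have hA3 : 600 * a ≤ a ^ 2 := by
    calc 600 * a ≤ a * a := Nat.mul_le_mul_right _ ha
      _ = a ^ 2 := by ring
  refine Nat.le_of_mul_le_mul_left ?_ ha0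
  have hexp : a * (3 * q * a + 3 * (W / a) + 3 + 9 * K) =
      3 * (q * a ^ 2) + 3 * (a * (W / a)) + 3 * a + 9 * (a * K) := by ring
  rw [hexp]
  omega

theorem cube_lt (a : ℕ) : a ^ 3 + 1 ≤ 2 ^ (4 * a) := by
  have h1 : a < 2 ^ a := Nat.lt_two_pow_self
  have h2 : a ^ 3 < (2 ^ a) ^ 3 := Nat.pow_lt_pow_left h1 (by norm_num)
  have h3 : (2 ^ a) ^ 3 ≤ 2 ^ (4 * a) := by
    rw [← pow_mul]
    exact Nat.pow_le_pow_right (by norm_num) (by omega)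
  omega

/-- The common driver: `Q` bounds `q`, `R` bounds `4 a ^ 2 / (λ_2 - λ_3)`. -/
theorem driveD (hC : CoreD) {a b k : ℕ} {lam : Fin (k + 3) → ℕ}
    (hsum : ∑ i, lam i = a * b) (h01 : lam 1 ≤ lam 0) (ha : 0 < a) (hbt : b ≤ dn2 lam + a)
    (hba : b ≤ a ^ 2) (hab : 1000 * a ≤ b) (htb : 1000 * dn2 lam ≤ a * b)
    {Q R : ℝ} (hR : 2 ≤ R)
    (h1 : 5 + 16 * (dn2 lam : ℝ) / (a : ℝ) ^ 2 ≤ Q)
    (h2 : 4 * (a : ℝ) ^ 2 ≤ R * ((lam 1 : ℝ) - lam 2)) (h3 : 12 * Q ^ 2 * R ≤ a)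
    (h4 : 384 * ((8 * Q + Q ^ 2 * R + 1) * Q ^ 2 * R) ^ 2 * dn2 lam ≤ (a : ℝ) ^ 3)
    (h5 : 10 ^ 6 * ((8 * Q + Q ^ 2 * R + 1) * Q ^ 2) ^ 2 * a ≤ dn2 lam) :
    plethMult a b (k + 3) lam ≤ plethMult b a (k + 3) lam := by
  obtain ⟨q, hq⟩ : ∃ q, q = 5 + 16 * dn2 lam / a ^ 2 := ⟨_, rfl⟩
  have hqQ : (q : ℝ) ≤ Q := by
    refine le_trans ?_ h1
    rw [hq, Nat.cast_add]
    have := @Nat.cast_div_le ℝ _ _ _ (16 * dn2 lam) (a ^ 2)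
    push_cast at this ⊢
    linarith
  have hq5 : 5 ≤ q := by rw [hq]; exact Nat.le_add_right _ _
  have hqa : q * a ^ 2 ≤ 5 * a ^ 2 + 16 * dn2 lam := by
    rw [hq, add_mul]
    have := Nat.div_mul_le_self (16 * dn2 lam) (a ^ 2)
    omega
  have hq0 : (5 : ℝ) ≤ q := by exact_mod_cast hq5
  have hQ5 : (5 : ℝ) ≤ Q := hq0.trans hqQ
  have hq2 : (q : ℝ) ^ 2 ≤ Q ^ 2 := pow_le_pow_left₀ (by linarith) hqQ 2
  have hQR : 0 ≤ Q ^ 2 * R := by positivity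
  obtain ⟨m, hm⟩ : ∃ m, m = 8 * q + ⌈Q ^ 2 * R⌉₊ := ⟨_, rfl⟩
  have hm1 : Q ^ 2 * R ≤ m := by
    rw [hm]
    push_cast
    have := Nat.le_ceil (Q ^ 2 * R)
    linarith
  have hm2 : (m : ℝ) ≤ 8 * Q + Q ^ 2 * R + 1 := by
    rw [hm]
    push_cast
    have := (Nat.ceil_lt_add_one hQR).le
    linarith
  have hm0 : 0 < m := by omega
  have hmR : (0 : ℝ) < m := by exact_mod_cast hm0
  have ha0 : (0 : ℝ) < a := by exact_mod_cast ha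
  have hR0 : 0 < R := by linarith
  have ht0 : (0 : ℝ) ≤ dn2 lam := Nat.cast_nonneg _
  have h24 : 24 * Q ^ 2 ≤ a := by
    refine le_trans ?_ h3
    nlinarith [sq_nonneg Q]
  have hQ25 : 5 * Q ≤ Q ^ 2 := by nlinarith
  have h120 : 120 * Q ≤ a := by linarith
  have ha600 : 600 ≤ a := by
    have : (600 : ℝ) ≤ a := by linarith
    exact_mod_cast this
  -- `D = 2 m q²`
  obtain ⟨D, hD⟩ : ∃ D, D = 2 * (m * q ^ 2) := ⟨_, rfl⟩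
  obtain ⟨T, hT⟩ : ∃ T, T = (8 * Q + Q ^ 2 * R + 1) * Q ^ 2 := ⟨_, rfl⟩
  rw [← hT] at h4 h5
  have hDT : (D : ℝ) ≤ 2 * T := by
    rw [hD, hT]
    push_cast
    have : (m : ℝ) * (q : ℝ) ^ 2 ≤ (8 * Q + Q ^ 2 * R + 1) * Q ^ 2 :=
      mul_le_mul hm2 hq2 (by positivity) (by positivity)
    linarith
  have hD0 : (0 : ℝ) ≤ D := Nat.cast_nonneg _
  have hD1 : 1 ≤ D := by
    rw [hD]
    exact Nat.succ_le_of_lt (by positivity)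
  have hDs : 96 * D ^ 2 ≤ dn2 lam / a := by
    rw [Nat.le_div_iff_mul_le ha]
    have : ((96 * D ^ 2 * a : ℕ) : ℝ) ≤ ((dn2 lam : ℕ) : ℝ) := by
      push_cast
      refine le_trans ?_ h5
      have h6 : (D : ℝ) ^ 2 ≤ (2 * T) ^ 2 := pow_le_pow_left₀ hD0 hDT 2
      have h7 : (D : ℝ) ^ 2 * a ≤ (2 * T) ^ 2 * a := by gcongr
      have h8 : 0 ≤ T ^ 2 * a := by positivity
      have h9 : (2 * T) ^ 2 * a = 4 * (T ^ 2 * a) := by ring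
      linarith
    exact_mod_cast this
  obtain ⟨X, hX1, hX2, hX3, hX4⟩ := pickX ha hbt hDs hD1
  -- the sizes
  obtain ⟨x, hx⟩ : ∃ x, x = q ^ 2 * a * (a / m) := ⟨_, rfl⟩
  have hxR : R * (x : ℝ) ≤ (a : ℝ) ^ 2 := by
    have hdiv : ((a / m : ℕ) : ℝ) ≤ (a : ℝ) / m := Nat.cast_div_le
    have h6 : (x : ℝ) ≤ (q : ℝ) ^ 2 * a * (a / m) := by
      rw [hx]
      push_cast
      gcongr
    have h7 : R * (x : ℝ) * m ≤ (a : ℝ) ^ 2 * m := by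
      calc R * (x : ℝ) * m ≤ R * ((q : ℝ) ^ 2 * a * (a / m)) * m := by gcongr
        _ = R * (q : ℝ) ^ 2 * (a : ℝ) ^ 2 := by field_simp
        _ ≤ R * Q ^ 2 * (a : ℝ) ^ 2 := by gcongr
        _ = (Q ^ 2 * R) * (a : ℝ) ^ 2 := by ring
        _ ≤ m * (a : ℝ) ^ 2 := by gcongr
        _ = (a : ℝ) ^ 2 * m := by ring
    exact le_of_mul_le_mul_right h7 hmR
  -- `y = 2 D X a`
  obtain ⟨y, hy⟩ : ∃ y, y = 2 * D * X * a := ⟨_, rfl⟩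
  have hyR : R * (y : ℝ) ≤ (a : ℝ) ^ 2 := by
    have hX4' : (X : ℝ) ^ 2 * a ≤ 24 * dn2 lam := by exact_mod_cast hX4
    have h6 : (R * (y : ℝ)) ^ 2 ≤ ((a : ℝ) ^ 2) ^ 2 := by
      calc (R * (y : ℝ)) ^ 2 = 4 * (D * R) ^ 2 * ((X : ℝ) ^ 2 * a) * a := by
            rw [hy]
            push_cast
            ring
        _ ≤ 4 * (2 * T * R) ^ 2 * (24 * dn2 lam) * a := by gcongr
        _ = 384 * (T * R) ^ 2 * dn2 lam * a := by ring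
        _ ≤ (a : ℝ) ^ 3 * a := by gcongr
        _ = ((a : ℝ) ^ 2) ^ 2 := by ring
    exact (pow_le_pow_iff_left₀ (by positivity) (by positivity) (by norm_num)).1 h6
  have h6q : 12 * (q : ℝ) ^ 2 * R ≤ a := by
    refine le_trans ?_ h3
    gcongr
  -- everything together
  obtain ⟨z, hz⟩ : ∃ z, z = 2 * q ^ 2 * a + y + x + 2 * a := ⟨_, rfl⟩
  have hzR : R * (z : ℝ) ≤ 3 * (a : ℝ) ^ 2 := by
    have h8 : R * (2 * (q : ℝ) ^ 2 * a + 2 * a) ≤ (a : ℝ) ^ 2 := by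
      have h9 : (2 : ℝ) ≤ (q : ℝ) ^ 2 := by nlinarith
      calc R * (2 * (q : ℝ) ^ 2 * a + 2 * a) ≤ R * (2 * (q : ℝ) ^ 2 * a + (q : ℝ) ^ 2 * a) := by
            gcongr
        _ = 3 * (q : ℝ) ^ 2 * R * a := by ring
        _ ≤ 12 * (q : ℝ) ^ 2 * R * a := by
            have : 0 ≤ (q : ℝ) ^ 2 * R * a := by positivity
            linarith
        _ ≤ (a : ℝ) * a := by gcongr
        _ = (a : ℝ) ^ 2 := by ring
    rw [hz]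
    push_cast
    linarith
  have hz0 : (0 : ℝ) ≤ z := Nat.cast_nonneg z
  have hz2 : 2 * z ≤ 3 * a ^ 2 := by
    have : 2 * (z : ℝ) ≤ 3 * (a : ℝ) ^ 2 := by
      refine le_trans ?_ hzR
      gcongr
    exact_mod_cast this
  have hz1 : lam 2 + z ≤ lam 1 := by
    have h8 : R * (z : ℝ) ≤ R * ((lam 1 : ℝ) - lam 2) := by
      refine hzR.trans (le_trans ?_ h2)
      have : 0 ≤ (a : ℝ) ^ 2 := by positivity
      linarith
    have h10 := le_of_mul_le_mul_left h8 hR0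
    have : ((lam 2 + z : ℕ) : ℝ) ≤ ((lam 1 : ℕ) : ℝ) := by
      push_cast
      linarith
    exact_mod_cast this
  have hlam2 : lam 2 ≤ dn2 lam := by
    have h : lam ((0 : Fin (k + 1)).succ.succ) ≤ ∑ i : Fin (k + 1), lam i.succ.succ :=
      Finset.single_le_sum (f := fun i : Fin (k + 1) => lam i.succ.succ)
        (fun _ _ => Nat.zero_le _) (Finset.mem_univ 0)
    exact h
  have hs : lam 0 + lam 1 ≤ a * b := by
    rw [← hsum, Fin.sum_univ_succ, Fin.sum_univ_succ]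
    have : (0 : Fin (k + 2)).succ = (1 : Fin (k + 3)) := rfl
    rw [this]
    omega
  have habc : a * b + 1 ≤ 2 ^ (4 * a) := by
    refine le_trans ?_ (cube_lt a)
    have : a * b ≤ a ^ 3 := by
      calc a * b ≤ a * a ^ 2 := Nat.mul_le_mul_left _ hba
        _ = a ^ 3 := by ring
    omega
  -- the choice of `K`
  obtain ⟨K, hK1, hK2⟩ : ∃ K, lam 2 + z + K * (5 * a - 6) ≤ lam 1 ∧
      lam 1 ≤ lam 2 + z + K * (5 * a - 6) + (5 * a - 6) := by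
    have hpos : 0 < 5 * a - 6 := by omega
    refine ⟨(lam 1 - lam 2 - z) / (5 * a - 6), ?_, ?_⟩
    · have := Nat.div_mul_le_self (lam 1 - lam 2 - z) (5 * a - 6)
      omega
    · have := Nat.lt_div_mul_add hpos (a := lam 1 - lam 2 - z)
      omega
  have hL : lam 2 + z + K * (5 * a - 6) =
      lam 2 + 2 * q ^ 2 * a + 2 * m * q ^ 2 * (2 * X) * a + q ^ 2 * a * (a / m) + 2 * a +
        K * (5 * a - 6) := by
    rw [hz, hy, hx, hD]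
    ring
  refine hC a b k q m X K lam hsum (by omega) hq (by omega) ?_ hX1 ?_ hX3 habc h01 ?_ ?_
  · have : ((40 * q : ℕ) : ℝ) ≤ (a : ℝ) := by
      push_cast
      linarith
    exact_mod_cast this
  · rw [Nat.le_div_iff_mul_le (by omega)]
    calc 2 * m * q * (2 * X) * q = 2 * D * X := by rw [hD]; ring
      _ ≤ dn2 lam / a := hX2
  · rw [← hL]
    exact hK1
  · exact lastNum ha600 hab htb h01 hs hlam2 hqa hz2 hK1 hK2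

/-- **(B12)** -/
theorem twoLongPD_of (hE : CoreD) (hPL : PLH) (hF : FewH) : TwoLongPD := by
  intro C₀ c₀ hC₀ hc₀
  obtain ⟨C', c', hP⟩ := hPL
  obtain ⟨C1, hC1, hC1'⟩ : ∃ C1 : ℝ, 0 ≤ C1 ∧ C' ≤ C1 := ⟨|C'|, abs_nonneg _, le_abs_self _⟩
  obtain ⟨e, hee1, hee2⟩ : ∃ e : ℕ, c' ≤ e ∧ c₀ ≤ e :=
    ⟨c' + ⌈c₀⌉₊, Nat.le_add_right _ _, (Nat.le_ceil c₀).trans (by
      push_cast
      linarith [(Nat.cast_nonneg c' : (0 : ℝ) ≤ c')])⟩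
  obtain ⟨Q0, hQ0⟩ : ∃ Q0, Q0 = 5 + C1 := ⟨_, rfl⟩
  have hQ1 : 0 < Q0 := by rw [hQ0]; positivity
  obtain ⟨M0, hM0⟩ : ∃ M0, M0 = 8 * Q0 + 4 * Q0 ^ 2 * (C₀ + 1) + 1 := ⟨_, rfl⟩
  have hM1 : 0 < M0 := by rw [hM0]; positivity
  obtain ⟨K0, hK0⟩ : ∃ K0, K0 = 6144 * (M0 ^ 2 * Q0 ^ 4 * (C₀ + 1) ^ 2) * C1 +
    48 * Q0 ^ 2 * (C₀ + 1) + C1 := ⟨_, rfl⟩
  obtain ⟨a₀, ha₀⟩ := ev_log K0 (e * 13)
  obtain ⟨C, hC⟩ : ∃ C, C = 10 ^ 6 * (M0 ^ 2 * Q0 ^ 4) + C1 * a₀ + 1 := ⟨_, rfl⟩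
  have hCpos : 0 < C := by rw [hC]; positivity
  refine ⟨C, ((e * 10 + 1 : ℕ) : ℝ), hCpos, by positivity, ?_⟩
  intro a b k lam hanti hsum ha hab hlam ht htb
  have h01 : lam 1 ≤ lam 0 := hanti (Fin.zero_le _)
  rw [Real.rpow_natCast] at ht
  have hL := one_le_L a
  obtain ⟨L, hLe⟩ : ∃ L, L = 1 + Real.log a := ⟨_, rfl⟩
  rw [← hLe] at hL hlam ht
  have hP1 := hP a b
  have ha1 := ha₀ a
  rw [← hLe] at hP1 ha1
  rw [pow_mul] at ha1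
  obtain ⟨P, hPe⟩ : ∃ P, P = L ^ e := ⟨_, rfl⟩
  rw [← hPe] at ha1
  have hP0 : 1 ≤ P := by rw [hPe]; exact one_le_pow₀ hL
  have hLP : L ^ c' ≤ P := by rw [hPe]; exact pow_le_pow_right₀ hL hee1
  have hLP2 : L ^ c₀ ≤ P := by
    rw [hPe, ← Real.rpow_natCast]
    exact Real.rpow_le_rpow_of_exponent_le hL hee2
  have hLP3 : P ^ 10 ≤ L ^ (e * 10 + 1) := by
    rw [hPe, ← pow_mul]
    exact pow_le_pow_right₀ hL (Nat.le_succ _)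
  have haR : (1 : ℝ) ≤ a := by exact_mod_cast ha
  have hbR : (0 : ℝ) ≤ b := Nat.cast_nonneg b
  have ht0 : (0 : ℝ) ≤ dn2 lam := Nat.cast_nonneg _
  have ht1 : C * P ^ 10 * a ≤ dn2 lam := by
    refine le_trans ?_ ht
    gcongr
  have ht2 : 1000 * (dn2 lam : ℝ) ≤ a * b := by exact_mod_cast htb
  have hP10 : P ≤ P ^ 10 := le_self_pow₀ hP0 (by norm_num)
  -- the polylog theorem
  by_cases hb : C1 * a * P ≤ b
  · refine hP1 ?_ _ _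
    refine le_trans ?_ hb
    have : 0 ≤ L ^ c' := by positivity
    calc C' * a * L ^ c' ≤ C1 * a * L ^ c' := by gcongr
      _ ≤ C1 * a * P := by gcongr
  push Not at hb
  -- small `a`
  have haa : a₀ < a := by
    by_contra hcon
    push Not at hcon
    have hcon' : (a : ℝ) ≤ a₀ := by exact_mod_cast hcon
    have h2 : 1000 * (C * P ^ 10) ≤ b := by
      have h3 : (a : ℝ) * (1000 * (C * P ^ 10)) ≤ a * b := by linarith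
      exact le_of_mul_le_mul_left h3 (by linarith)
    have h3 : C1 * a * P ≤ C * P ^ 10 := by
      have h5 : C1 * a ≤ C := by
        have h6 : C1 * a ≤ C1 * a₀ := by gcongr
        have h7 : 0 ≤ 10 ^ 6 * (M0 ^ 2 * Q0 ^ 4) := by positivity
        rw [hC]
        linarith
      gcongr
    have h9 : 0 ≤ C * P ^ 10 := by positivity
    linarith
  have hQa : K0 * P ^ 13 ≤ a := ha1 haa.le
  have hpA : 0 ≤ 6144 * (M0 ^ 2 * Q0 ^ 4 * (C₀ + 1) ^ 2) * C1 * P ^ 13 := by positivity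
  have hpB : 0 ≤ 48 * Q0 ^ 2 * (C₀ + 1) * P ^ 13 := by positivity
  have hpC : 0 ≤ C1 * P ^ 13 := by positivity
  have hsplit : K0 * P ^ 13 = 6144 * (M0 ^ 2 * Q0 ^ 4 * (C₀ + 1) ^ 2) * C1 * P ^ 13 +
      48 * Q0 ^ 2 * (C₀ + 1) * P ^ 13 + C1 * P ^ 13 := by rw [hK0]; ring
  have hQa1 : 48 * Q0 ^ 2 * (C₀ + 1) * P ^ 13 ≤ a := by linarith
  have hQa2 : 6144 * (M0 ^ 2 * Q0 ^ 4 * (C₀ + 1) ^ 2) * C1 * P ^ 13 ≤ a := by linarith
  have hQa3 : C1 * P ^ 13 ≤ a := by linarith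
  have hP3 : P ^ 3 ≤ P ^ 13 := pow_le_pow_right₀ hP0 (by norm_num)
  have hP1' : P ≤ P ^ 13 := le_self_pow₀ hP0 (by norm_num)
  have hP13 : 1 ≤ P ^ 13 := one_le_pow₀ hP0
  have ha2 : 2 ≤ a := by
    have h1 : (5 : ℝ) ≤ Q0 := by rw [hQ0]; linarith
    have h2 : (25 : ℝ) ≤ Q0 ^ 2 := by nlinarith
    have h3 : (1 : ℝ) ≤ C₀ + 1 := by linarith
    have h4 : (25 : ℝ) * 1 * 1 ≤ Q0 ^ 2 * (C₀ + 1) * P ^ 13 := by gcongr
    have h5 : (2 : ℝ) ≤ a := by linarith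
    exact_mod_cast h5
  by_cases hfew : dn2 lam + a ≤ b + 1
  · exact hF a b (k + 1) lam ha2 hfew
  have ha3 : (0 : ℝ) < (a : ℝ) ^ 2 := by positivity
  have hpos : 0 < (lam 1 : ℝ) - lam 2 := by
    by_contra hcon
    push Not at hcon
    have h1 : 0 ≤ C₀ * L ^ c₀ := by positivity
    have h2 := mul_nonpos_of_nonneg_of_nonpos h1 hcon
    linarith
  have hba : b ≤ a ^ 2 := by
    have : (b : ℝ) ≤ (a : ℝ) ^ 2 := by
      have h1 : C1 * P ≤ C1 * P ^ 13 := by gcongr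
      calc (b : ℝ) ≤ C1 * a * P := hb.le
        _ = (C1 * P) * a := by ring
        _ ≤ (a : ℝ) * a := by
            have : C1 * P ≤ (a : ℝ) := h1.trans hQa3
            gcongr
        _ = (a : ℝ) ^ 2 := by ring
    exact_mod_cast this
  have ht3 : (dn2 lam : ℝ) ≤ C1 * P * (a : ℝ) ^ 2 := by
    have h2 : (a : ℝ) * b ≤ a * (C1 * a * P) := by gcongr
    calc (dn2 lam : ℝ) ≤ a * b := by linarith
      _ ≤ a * (C1 * a * P) := h2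
      _ = C1 * P * (a : ℝ) ^ 2 := by ring
  have hS : 8 * (Q0 * P) + (Q0 * P) ^ 2 * (4 * (C₀ + 1) * P) + 1 ≤ M0 * P ^ 3 := by
    have h2 : P ≤ P ^ 3 := le_self_pow₀ hP0 (by norm_num)
    have h3 : 1 ≤ P ^ 3 := one_le_pow₀ hP0
    have h5 : 8 * Q0 * P ≤ 8 * Q0 * P ^ 3 := by gcongr
    rw [hM0]
    calc 8 * (Q0 * P) + (Q0 * P) ^ 2 * (4 * (C₀ + 1) * P) + 1
        = 8 * Q0 * P + 4 * Q0 ^ 2 * (C₀ + 1) * P ^ 3 + 1 := by ring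
      _ ≤ 8 * Q0 * P ^ 3 + 4 * Q0 ^ 2 * (C₀ + 1) * P ^ 3 + P ^ 3 := by linarith
      _ = (8 * Q0 + 4 * Q0 ^ 2 * (C₀ + 1) + 1) * P ^ 3 := by ring
  have hS0 : 0 ≤ 8 * (Q0 * P) + (Q0 * P) ^ 2 * (4 * (C₀ + 1) * P) + 1 := by positivity
  refine driveD hE hsum h01 ha (by omega) hba hab htb (Q := Q0 * P) (R := 4 * (C₀ + 1) * P)
    ?_ ?_ ?_ ?_ ?_ ?_
  · have : (1 : ℝ) * 1 ≤ (C₀ + 1) * P := by
      have h3 : (1 : ℝ) ≤ C₀ + 1 := by linarith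
      gcongr
    linarith
  · have h1 : 16 * (dn2 lam : ℝ) / (a : ℝ) ^ 2 ≤ C1 * P := by
      rw [div_le_iff₀ ha3]
      have h2 : (a : ℝ) * b ≤ a * (C1 * a * P) := by gcongr
      calc 16 * (dn2 lam : ℝ) ≤ a * b := by linarith
        _ ≤ a * (C1 * a * P) := h2
        _ = C1 * P * (a : ℝ) ^ 2 := by ring
    rw [hQ0]
    linarith
  · have h1 : (a : ℝ) ^ 2 ≤ C₀ * P * ((lam 1 : ℝ) - lam 2) := by
      refine hlam.trans ?_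
      gcongr
    have h2 : 0 ≤ P * ((lam 1 : ℝ) - lam 2) := by positivity
    linarith
  · calc 12 * (Q0 * P) ^ 2 * (4 * (C₀ + 1) * P) = 48 * Q0 ^ 2 * (C₀ + 1) * P ^ 3 := by ring
      _ ≤ 48 * Q0 ^ 2 * (C₀ + 1) * P ^ 13 := by gcongr
      _ ≤ (a : ℝ) := hQa1
  · calc 384 * ((8 * (Q0 * P) + (Q0 * P) ^ 2 * (4 * (C₀ + 1) * P) + 1) * (Q0 * P) ^ 2 *
          (4 * (C₀ + 1) * P)) ^ 2 * dn2 lam
        ≤ 384 * ((M0 * P ^ 3) * (Q0 * P) ^ 2 * (4 * (C₀ + 1) * P)) ^ 2 *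
          (C1 * P * (a : ℝ) ^ 2) := by gcongr
      _ = (6144 * (M0 ^ 2 * Q0 ^ 4 * (C₀ + 1) ^ 2) * C1 * P ^ 13) * (a : ℝ) ^ 2 := by ring
      _ ≤ (a : ℝ) * (a : ℝ) ^ 2 := by gcongr
      _ = (a : ℝ) ^ 3 := by ring
  · have h6 : 10 ^ 6 * (M0 ^ 2 * Q0 ^ 4) ≤ C := by
      rw [hC]
      have : 0 ≤ C1 * a₀ := by positivity
      linarith
    calc 10 ^ 6 * ((8 * (Q0 * P) + (Q0 * P) ^ 2 * (4 * (C₀ + 1) * P) + 1) *
          (Q0 * P) ^ 2) ^ 2 * a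
        ≤ 10 ^ 6 * ((M0 * P ^ 3) * (Q0 * P) ^ 2) ^ 2 * a := by gcongr
      _ = 10 ^ 6 * (M0 ^ 2 * Q0 ^ 4) * P ^ 10 * a := by ring
      _ ≤ C * P ^ 10 * a := by gcongr
      _ ≤ dn2 lam := ht1

end Vale.Agent.P181.BAL.H410
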